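import Crest.Agent.N250.Master
import Crest.Agent.N250.T.Stm
import Crest.Agent.N250.Tr.Base

/-!
# Row 250 (helper92): two halves of `LimStmt`: existence of the limit flow, and `AStar` of the limit
-/

set_option autoImplicit false
open MeasureTheory Set Filter Topology
open scoped ContDiff InnerProductSpace
open Crest.GeometryTopology.MCF

noncomputable section

namespace Crest.Agent.N250.Lim

/-- two-sided balls shrink -/
theorem reach_mono {F : Mv} {p : ST} {ρ ρ' : ℝ} (hn : ‖F.n p‖ = 1) (h : F.Reach p ρ)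
    (hle : ρ' ≤ ρ) : F.Reach p ρ' := by
  intro y hy
  obtain ⟨h1, h2⟩ := h y hy
  have e1 : dist (p.1 + ρ' • F.n p) (p.1 + ρ • F.n p) = ρ - ρ' := by
    rw [dist_eq_norm, show p.1 + ρ' • F.n p - (p.1 + ρ • F.n p) = (ρ' - ρ) • F.n p by
      rw [sub_smul]; abel, norm_smul, hn, mul_one, Real.norm_eq_abs, abs_sub_comm,
      abs_of_nonneg (by linarith)]
  have e2 : dist (p.1 - ρ' • F.n p) (p.1 - ρ • F.n p) = ρ - ρ' := by
    rw [dist_eq_norm, show p.1 - ρ' • F.n p - (p.1 - ρ • F.n p) = (ρ - ρ') • F.n p by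
      rw [sub_smul]; abel, norm_smul, hn, mul_one, Real.norm_eq_abs,
      abs_of_nonneg (by linarith)]
  constructor
  · have := dist_triangle y (p.1 + ρ' • F.n p) (p.1 + ρ • F.n p)
    linarith
  · have := dist_triangle y (p.1 - ρ' • F.n p) (p.1 - ρ • F.n p)
    linarith

/-- the Gaussian density ratio is monotone in the scale -/
theorem fg_mono (hH : HuiskenS) {F : Mv} {I : Set ℝ} {Λ : ℝ} (hI : Tm I) (hF : Fl F I Λ) (y : E)
    {r s : ℝ} (hr : 0 < r) (hrs : r ≤ s) (hs : -s ^ 2 ∈ I) :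
    F.Fg (y, 0) r ≤ F.Fg (y, 0) s := by
  have h2 : r ^ 2 ≤ s ^ 2 := pow_le_pow_left₀ hr.le hrs 2
  have h0 : 0 < r ^ 2 := by positivity
  have := (hH F I Λ hI.isOpen hF (y, 0) (-s ^ 2) (-r ^ 2) (by linarith) (by simp; positivity)
    (fun t ht => hI.up _ hs t ht.1 (by linarith [ht.2]))).1
  simpa [Mv.Fg] using this

theorem isOpen_NT : IsOpen NT := isOpen_univ.prod isOpen_Iio

/-- locally uniform reach of almost self-similar flows of the class -/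
theorem reach_ev (hH : HuiskenS) {α : Type} {l : Filter α} {Fk : α → Mv} {Ik : α → Set ℝ}
    {Λ : ℝ} {m : Md} (h1 : ∀ᶠ k in l, Cl (Fk k) (Ik k) Λ m)
    (h2 : ∀ t < 0, ∀ᶠ k in l, t ∈ Ik k)
    (h3 : ∀ K : ℝ, 1 < K → Tendsto (fun k => (Fk k).Fg 0 K - (Fk k).Fg 0 K⁻¹) l (𝓝 0))
    (p : ST) (hp : p ∈ NT) :
    ∃ U ∈ 𝓝 p, ∃ ρ, 0 < ρ ∧ ∀ᶠ k in l, (Fk k).IsMCF ∧ (Fk k).Proper U ∧
      ∀ q ∈ (Fk k).M ∩ U, (Fk k).Reach q ρ := by
  obtain ⟨x, t⟩ := p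
  have ht : t < 0 := hp.2
  set a : ℝ := √(-t / 2) with ha
  set b : ℝ := √(-(2 * t)) with hb
  have ha0 : 0 < a := Real.sqrt_pos.2 (by linarith)
  have hb0 : 0 < b := Real.sqrt_pos.2 (by linarith)
  set R : ℝ := (‖x‖ + 1) / a with hR
  have hL : 1 ≤ m.L R := m.L_ge R
  have hL0 : 0 < m.L R := by linarith
  set K : ℝ := 1 + m.L R * b + m.L R / a with hK
  have hq1 : 0 < m.L R * b := by positivity
  have hq2 : 0 < m.L R / a := by positivity
  have hK1 : 1 < K := by linarith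
  have hK0 : 0 < K := by linarith
  refine ⟨Metric.ball x 1 ×ˢ Ioo (2 * t) (t / 2), prod_mem_nhds (Metric.ball_mem_nhds x one_pos)
    (Ioo_mem_nhds (by linarith) (by linarith)), m.c R * a, mul_pos (m.c_pos R) ha0, ?_⟩
  filter_upwards [h1, h2 (-K ^ 2) (by simp; positivity), h2 (2 * t) (by linarith),
    (h3 K hK1).eventually (gt_mem_nhds (m.η_pos R))] with k hk hKI htI hd
  refine ⟨hk.fl.mcf, fun q hq hU => hk.fl.proper q hq
    ⟨trivial, hk.tm.up _ htI _ hU.2.1.le (by linarith [hU.2.2])⟩, ?_⟩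
  rintro ⟨z, s⟩ ⟨hM, hz, hs1, hs2⟩
  simp only at hs1 hs2 hz
  have hs0 : 0 < -s := by linarith
  set r : ℝ := √(-s) with hr
  have hr0 : 0 < r := Real.sqrt_pos.2 hs0
  have hrs : -r ^ 2 = s := by rw [hr, Real.sq_sqrt hs0.le, neg_neg]
  have har : a ≤ r := Real.sqrt_le_sqrt (by linarith)
  have hrb : r ≤ b := Real.sqrt_le_sqrt (by linarith)
  have hLr : m.L R * r ≤ K := by
    have : m.L R * r ≤ m.L R * b := by gcongr
    linarith
  have hLr0 : 0 < m.L R * r := by positivity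
  have hKr : K⁻¹ ≤ r / m.L R := by
    have e1 : m.L R / a ≤ K := by linarith
    calc K⁻¹ ≤ (m.L R / a)⁻¹ := inv_anti₀ hq2 e1
      _ = a / m.L R := by rw [inv_div]
      _ ≤ r / m.L R := by gcongr
  have hI1 : -(m.L R * r) ^ 2 ∈ Ik k :=
    hk.tm.up _ hKI _ (neg_le_neg (pow_le_pow_left₀ hLr0.le hLr 2)) (by simp; positivity)
  have hrL : r / m.L R ≤ K := by
    have : r / m.L R ≤ m.L R * r := by
      rw [div_le_iff₀ hL0]
      nlinarith [mul_le_mul hL hL zero_le_one hL0.le]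
    linarith
  have hI2 : -(r / m.L R) ^ 2 ∈ Ik k :=
    hk.tm.up _ hKI _ (neg_le_neg (pow_le_pow_left₀ (by positivity) hrL 2)) (by simp; positivity)
  have m1 := fg_mono hH hk.tm hk.fl 0 hLr0 hLr hKI
  have m2 := fg_mono hH hk.tm hk.fl 0 (inv_pos.2 hK0) hKr hI2
  have hd' : (Fk k).Fg ((0 : E), (0 : ℝ)) K - (Fk k).Fg ((0 : E), (0 : ℝ)) K⁻¹ < m.η R := hd
  have hzR : dist z 0 < R * r := by
    have e1 : dist z 0 < ‖x‖ + 1 := by
      have := dist_triangle z x 0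
      rw [dist_zero_right x] at this
      linarith [Metric.mem_ball.1 hz]
    have e2 : R * a = ‖x‖ + 1 := by rw [hR]; field_simp
    have e3 : R * a ≤ R * r := by
      have : 0 ≤ R := by rw [hR]; positivity
      gcongr
    linarith
  have := hk.as R 0 r hr0 hI1 (by linarith) z (by rw [hrs]; exact hM) hzR
  rw [hrs] at this
  exact reach_mono (Tr.n_unit hk.fl.mcf.1 hM) this
    (mul_le_mul_of_nonneg_left har (m.c_pos R).le)

/-- the limit flow exists -/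
theorem lim_exists (hC : CptS) (hH : HuiskenS) {α : Type} {l : Ultrafilter α} {Fk : α → Mv}
    {Ik : α → Set ℝ} {Λ : ℝ} {m : Md} (h1 : ∀ᶠ k in (l : Filter α), Cl (Fk k) (Ik k) Λ m)
    (h2 : ∀ t < 0, ∀ᶠ k in (l : Filter α), t ∈ Ik k)
    (h3 : ∀ K : ℝ, 1 < K → Tendsto (fun k => (Fk k).Fg 0 K - (Fk k).Fg 0 K⁻¹) l (𝓝 0)) :
    ∃ F : Mv, F.IsMCF ∧ F.M ⊆ NT ∧ F.Proper NT ∧ Conv l Fk F NT :=
  hC α l Fk NT isOpen_NT (reach_ev hH h1 h2 h3)

/-- Gaussian densities about points at time `0` converge -/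
theorem fg_tendsto (hFl : ConvFlS) {α : Type} {l : Filter α} [l.NeBot] {Fk : α → Mv}
    {Ik : α → Set ℝ} {Λ : ℝ} {F : Mv} (h1 : ∀ᶠ k in l, Fl (Fk k) (Ik k) Λ)
    (hc : Conv l Fk F NT) (hM : F.M ⊆ NT) (y : E) {r : ℝ} (hr : 0 < r) :
    Tendsto (fun k => (Fk k).Fg (y, 0) r) l (𝓝 (F.Fg (y, 0) r)) :=
  (hFl α l Fk Ik F (Iio 0) Λ isOpen_Iio h1 hc (fun p hp => (hM hp).2)).2.2
    (fun _ => 0 - r ^ 2) (fun _ => y) (fun _ => r ^ 2) (0 - r ^ 2) y (r ^ 2)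
    (by simp; positivity) (by positivity) tendsto_const_nhds tendsto_const_nhds tendsto_const_nhds

/-- `AStar` passes to limits -/
theorem astar_closed (hFl : ConvFlS) (hJ : ConvJetS) (hR : ConvReachS) {α : Type} {l : Filter α}
    [l.NeBot] {Fk : α → Mv} {Ik : α → Set ℝ} {Λ : ℝ} {m : Md} {F : Mv}
    (h1 : ∀ᶠ k in l, Cl (Fk k) (Ik k) Λ m) (h2 : ∀ t < 0, ∀ᶠ k in l, t ∈ Ik k)
    (hc : Conv l Fk F NT) (hM : F.M ⊆ NT) : AStar F (Iio 0) m := by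
  intro R y r hr hI hd x hx hxy
  have hfl : ∀ᶠ k in l, Fl (Fk k) (Ik k) Λ := h1.mono fun k hk => hk.fl
  have hL0 : 0 < m.L R := lt_of_lt_of_le one_pos (m.L_ge R)
  have t1 := (fg_tendsto hFl hfl hc hM y (mul_pos hL0 hr)).sub
    (fg_tendsto hFl hfl hc hM y (div_pos hr hL0))
  obtain ⟨xk, hxk, hmem⟩ := (hJ α l Fk F NT hc).2 (x, -r ^ 2) (hM hx) hx (fun _ => -r ^ 2)
    tendsto_const_nhds
  have hdist : ∀ᶠ k in l, dist (xk k) y < R * r :=
    (hxk.dist (tendsto_const_nhds (x := y))).eventually (gt_mem_nhds hxy)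
  refine (hR α l Fk F NT isOpen_NT hc (fun k => (xk k, -r ^ 2)) (x, -r ^ 2) (m.c R * r)
    (mul_pos (m.c_pos R) hr) (hxk.prodMk_nhds tendsto_const_nhds) hmem ?_).1 ?_
  · rintro ⟨z, s⟩ ⟨-, hs⟩
    refine ⟨trivial, ?_⟩
    rw [mem_singleton_iff] at hs
    simp only at hs
    rw [hs]
    exact (hM hx).2
  · filter_upwards [h1, h2 _ hI, t1.eventually (gt_mem_nhds hd), hmem, hdist] with k a b c d e
    exact a.as R y r hr b c (xk k) d e

/-- the class `Cl` is closed under limits -/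
theorem cl_closed (hFl : ConvFlS) (hJ : ConvJetS) (hR : ConvReachS) {α : Type} {l : Filter α}
    [l.NeBot] {Fk : α → Mv} {Ik : α → Set ℝ} {Λ : ℝ} {m : Md} {F : Mv}
    (h1 : ∀ᶠ k in l, Cl (Fk k) (Ik k) Λ m) (h2 : ∀ t < 0, ∀ᶠ k in l, t ∈ Ik k)
    (hc : Conv l Fk F NT) (hM : F.M ⊆ NT) : Cl F (Iio 0) Λ m :=
  ⟨tm_Iio, (hFl α l Fk Ik F (Iio 0) Λ isOpen_Iio (h1.mono fun _ hk => hk.fl) hc
    (fun _ hp => (hM hp).2)).1, astar_closed hFl hJ hR h1 h2 hc hM⟩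

/-- the limit has constant Gaussian density ratios about the origin -/
theorem fg_const (hFl : ConvFlS) {α : Type} {l : Filter α} [l.NeBot] {Fk : α → Mv}
    {Ik : α → Set ℝ} {Λ : ℝ} {F : Mv} (h1 : ∀ᶠ k in l, Fl (Fk k) (Ik k) Λ)
    (h3 : ∀ K : ℝ, 1 < K → Tendsto (fun k => (Fk k).Fg 0 K - (Fk k).Fg 0 K⁻¹) l (𝓝 0))
    (hc : Conv l Fk F NT) (hM : F.M ⊆ NT) {K : ℝ} (hK : 1 < K) : F.Fg 0 K = F.Fg 0 K⁻¹ := by
  have hK0 : 0 < K := by linarith
  have t1 := (fg_tendsto hFl h1 hc hM 0 hK0).sub (fg_tendsto hFl h1 hc hM 0 (inv_pos.2 hK0))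
  exact sub_eq_zero.1 (tendsto_nhds_unique t1 (h3 K hK))

end Crest.Agent.N250.Lim

end
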